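import Vale.Agent.P127.Stk.LibEnt

/-!
# P127 / U / H420 : the entropy cost of a chain of shapes (helper420)

* `hc_int_le` : `H(Z | Y) ≤ log 4 + 2 log (1 + E|Z|)` for an integer variable.
* `sum_log_le` : `∑ log (1 + μ j) ≤ k log (1 + M / k)`.
* `incr_cost`, `incr_cost₂` : a sequence of integer variables (pairs of integer variables) of total
  variation `≤ M` has `∑ H(e (j+1) | e j) ≤ k (log 4 + 2 log (1 + M / k))`.
* `tele_cost` : `∑ I(e (j+1) ; T (j+1) | L, T j) ≤ H(e 0 | L, T 0) + ∑ H(e (j+1) | e j)`.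
-/

set_option autoImplicit false

namespace Vale.Agent.P127.U.ShapeCost

open Finset Vale.Agent.P127 Vale.Agent.P127.Stk

section ent

variable {Ω : Type} [Fintype Ω] {S T U : Type*} (P : Law Ω)

/-- Jensen for the logarithm -/
theorem ex_log_le (f : Ω → ℝ) (hf : ∀ ω, 0 ≤ f ω) :
    P.ex (fun ω => Real.log (1 + f ω)) ≤ Real.log (1 + P.ex f) := by
  have h0 : 0 ≤ P.ex f := P.ex_nonneg fun ω _ => hf ω
  have hm : 0 < 1 + P.ex f := by linarith
  have h1 : P.ex (fun ω => Real.log (1 + f ω)) ≤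
      P.ex (fun ω => Real.log (1 + P.ex f) + (1 + P.ex f)⁻¹ * (f ω - P.ex f)) := by
    refine P.ex_mono fun ω _ => ?_
    have hx : 0 < 1 + f ω := by linarith [hf ω]
    have h2 := Real.log_le_sub_one_of_pos (div_pos hx hm)
    rw [Real.log_div hx.ne' hm.ne'] at h2
    have h3 : (1 + f ω) / (1 + P.ex f) - 1 = (1 + P.ex f)⁻¹ * (f ω - P.ex f) := by
      field_simp
      ring
    linarith
  refine h1.trans (le_of_eq ?_)
  rw [P.ex_add, P.ex_const, P.ex_const_mul, P.ex_sub, P.ex_const]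
  ring

/-- entropy of an integer variable -/
theorem hc_int_le (Z : Ω → ℤ) (Y : Ω → T) :
    hc P Z Y ≤ Real.log 4 + 2 * Real.log (1 + P.ex fun ω => |(Z ω : ℝ)|) := by
  have h := P.H_scale Z Y 1 le_rfl
  simp only [Real.log_one, add_zero, div_one] at h
  have h2 := ex_log_le P (fun ω => |(Z ω : ℝ)|) fun ω => abs_nonneg _
  unfold hc
  linarith

/-- one increment -/
theorem hc_incr_le (e e' : Ω → ℤ) :
    hc P e' e ≤ Real.log 4 + 2 * Real.log (1 + P.ex fun ω => |(e' ω : ℝ) - e ω|) := by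
  have h1 : hc P e' e ≤ hc P (fun ω => e' ω - e ω) e := by
    refine hc_mono_left P ?_
    intro ω ω' _ _ q
    simp only [Prod.mk.injEq] at q
    omega
  have h2 := hc_int_le P (fun ω => e' ω - e ω) e
  push_cast at h2
  exact h1.trans h2

/-- one increment of a pair -/
theorem hc_incr_le₂ (e e' : Ω → ℤ × ℤ) :
    hc P e' e ≤ 2 * Real.log 4 +
      2 * Real.log (1 + P.ex fun ω => |((e' ω).1 : ℝ) - (e ω).1|) +
      2 * Real.log (1 + P.ex fun ω => |((e' ω).2 : ℝ) - (e ω).2|) := by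
  have h1 : hc P e' e ≤ hc P (fun ω => (e' ω).1) e +
      hc P (fun ω => (e' ω).2) (fun ω => ((e' ω).1, e ω)) := by
    rw [← hc_pair P (fun ω => (e' ω).1) (fun ω => (e' ω).2) e]
  have h2 : hc P (fun ω => (e' ω).1) e ≤ hc P (fun ω => (e' ω).1) (fun ω => (e ω).1) :=
    hc_mono_right P _ fun ω ω' _ _ q => congrArg Prod.fst q
  have h3 : hc P (fun ω => (e' ω).2) (fun ω => ((e' ω).1, e ω)) ≤
      hc P (fun ω => (e' ω).2) (fun ω => (e ω).2) :=
    hc_mono_right P _ fun ω ω' _ _ q => by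
      simp only [Prod.mk.injEq] at q
      exact congrArg Prod.snd q.2
  have h4 := hc_incr_le P (fun ω => (e ω).1) (fun ω => (e' ω).1)
  have h5 := hc_incr_le P (fun ω => (e ω).2) (fun ω => (e' ω).2)
  linarith

end ent

/-- `∑ log (1 + μ j) ≤ k log (1 + M / k)` -/
theorem sum_log_le (k : ℕ) (μ : ℕ → ℝ) (M : ℝ) (h0 : ∀ j, j < k → 0 ≤ μ j)
    (hM : ∑ j ∈ range k, μ j ≤ M) :
    ∑ j ∈ range k, Real.log (1 + μ j) ≤ k * Real.log (1 + M / k) := by
  rcases Nat.eq_zero_or_pos k with rfl | hk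
  · simp
  have hk' : (0 : ℝ) < k := by exact_mod_cast hk
  have hS : 0 ≤ ∑ j ∈ range k, μ j := sum_nonneg fun j hj => h0 j (mem_range.1 hj)
  have hM0 : 0 ≤ M := hS.trans hM
  have hm : 0 < 1 + M / k := by positivity
  have h1 : ∑ j ∈ range k, Real.log (1 + μ j) ≤
      ∑ j ∈ range k, (Real.log (1 + M / k) + (1 + M / k)⁻¹ * (μ j - M / k)) := by
    refine sum_le_sum fun j hj => ?_
    have hx : 0 < 1 + μ j := by linarith [h0 j (mem_range.1 hj)]
    have h2 := Real.log_le_sub_one_of_pos (div_pos hx hm)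
    rw [Real.log_div hx.ne' hm.ne'] at h2
    have h3 : (1 + μ j) / (1 + M / k) - 1 = (1 + M / k)⁻¹ * (μ j - M / k) := by
      field_simp
      ring
    linarith
  refine h1.trans ?_
  rw [sum_add_distrib, ← mul_sum, sum_sub_distrib]
  simp only [sum_const, card_range, nsmul_eq_mul]
  have h4 : (k : ℝ) * (M / k) = M := by field_simp
  rw [h4]
  have h5 : (1 + M / k)⁻¹ * (∑ j ∈ range k, μ j - M) ≤ 0 :=
    mul_nonpos_of_nonneg_of_nonpos (inv_nonneg.2 hm.le) (by linarith)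
  linarith

section chain

variable {Ω : Type} [Fintype Ω] (P : Law Ω)

/-- total cost of the increments of an integer sequence of total variation `≤ M` -/
theorem incr_cost (k : ℕ) (e : ℕ → Ω → ℤ) (M : ℝ)
    (hM : ∑ j ∈ range k, P.ex (fun ω => |(e (j + 1) ω : ℝ) - e j ω|) ≤ M) :
    ∑ j ∈ range k, hc P (e (j + 1)) (e j) ≤ k * (Real.log 4 + 2 * Real.log (1 + M / k)) := by
  have h1 : ∑ j ∈ range k, hc P (e (j + 1)) (e j) ≤ ∑ j ∈ range k,
      (Real.log 4 + 2 * Real.log (1 + P.ex fun ω => |(e (j + 1) ω : ℝ) - e j ω|)) :=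
    sum_le_sum fun j _ => hc_incr_le P (e j) (e (j + 1))
  have h2 := sum_log_le k (fun j => P.ex fun ω => |(e (j + 1) ω : ℝ) - e j ω|) M
    (fun j _ => P.ex_nonneg fun ω _ => abs_nonneg _) hM
  rw [sum_add_distrib, ← mul_sum] at h1
  simp only [sum_const, card_range, nsmul_eq_mul] at h1
  nlinarith

/-- total cost of the increments of a sequence of pairs of integers -/
theorem incr_cost₂ (k : ℕ) (e : ℕ → Ω → ℤ × ℤ) (M₁ M₂ : ℝ)
    (hM₁ : ∑ j ∈ range k, P.ex (fun ω => |((e (j + 1) ω).1 : ℝ) - (e j ω).1|) ≤ M₁)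
    (hM₂ : ∑ j ∈ range k, P.ex (fun ω => |((e (j + 1) ω).2 : ℝ) - (e j ω).2|) ≤ M₂) :
    ∑ j ∈ range k, hc P (e (j + 1)) (e j) ≤
      k * (2 * Real.log 4 + 2 * Real.log (1 + M₁ / k) + 2 * Real.log (1 + M₂ / k)) := by
  have h1 : ∑ j ∈ range k, hc P (e (j + 1)) (e j) ≤ ∑ j ∈ range k,
      (2 * Real.log 4 +
        2 * Real.log (1 + P.ex fun ω => |((e (j + 1) ω).1 : ℝ) - (e j ω).1|) +
        2 * Real.log (1 + P.ex fun ω => |((e (j + 1) ω).2 : ℝ) - (e j ω).2|)) :=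
    sum_le_sum fun j _ => hc_incr_le₂ P (e j) (e (j + 1))
  have h2 := sum_log_le k (fun j => P.ex fun ω => |((e (j + 1) ω).1 : ℝ) - (e j ω).1|) M₁
    (fun j _ => P.ex_nonneg fun ω _ => abs_nonneg _) hM₁
  have h3 := sum_log_le k (fun j => P.ex fun ω => |((e (j + 1) ω).2 : ℝ) - (e j ω).2|) M₂
    (fun j _ => P.ex_nonneg fun ω _ => abs_nonneg _) hM₂
  simp only [sum_add_distrib, ← mul_sum, sum_const, card_range, nsmul_eq_mul] at h1
  nlinarith

/-- monotone integer sequences have total variation equal to the total increment -/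
theorem mono_var (k : ℕ) (e : ℕ → Ω → ℤ) (M : ℝ)
    (hmono : ∀ j, j < k → ∀ ω, 0 < P.w ω → e j ω ≤ e (j + 1) ω)
    (hM : ∀ ω, 0 < P.w ω → (e k ω : ℝ) - e 0 ω ≤ M) :
    ∑ j ∈ range k, P.ex (fun ω => |(e (j + 1) ω : ℝ) - e j ω|) ≤ M := by
  have h1 : ∀ n, n ≤ k → ∑ j ∈ range n, P.ex (fun ω => |(e (j + 1) ω : ℝ) - e j ω|) =
      P.ex (fun ω => (e n ω : ℝ) - e 0 ω) := by
    intro n hn
    induction n with
    | zero => simp [P.ex_const]
    | succ n ih =>
      rw [sum_range_succ, ih (by omega), ← P.ex_add]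
      refine P.ex_congr fun ω hω => ?_
      have h2 : ((e n ω : ℤ) : ℝ) ≤ e (n + 1) ω := by exact_mod_cast hmono n (by omega) ω hω
      rw [abs_of_nonneg (by linarith)]
      ring
  rw [h1 k le_rfl]
  have h3 := P.ex_mono (f := fun ω => (e k ω : ℝ) - e 0 ω) (g := fun _ => M) hM
  rwa [P.ex_const] at h3

/-- the same for nonincreasing sequences -/
theorem anti_var (k : ℕ) (e : ℕ → Ω → ℤ) (M : ℝ)
    (hmono : ∀ j, j < k → ∀ ω, 0 < P.w ω → e (j + 1) ω ≤ e j ω)
    (hM : ∀ ω, 0 < P.w ω → (e 0 ω : ℝ) - e k ω ≤ M) :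
    ∑ j ∈ range k, P.ex (fun ω => |(e (j + 1) ω : ℝ) - e j ω|) ≤ M := by
  have h := mono_var P k (fun j ω => - e j ω) M
    (fun j hj ω hω => neg_le_neg (hmono j hj ω hω)) (fun ω hω => by
      have := hM ω hω
      push_cast
      linarith)
  refine le_trans (le_of_eq ?_) h
  refine sum_congr rfl fun j _ => ?_
  refine P.ex_congr fun ω _ => ?_
  push_cast
  rw [← abs_neg]
  congr 1
  ring

variable {α β : Type*} {τ : ℕ → Type*}

/-- **telescoping of the cost of the shapes** -/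
theorem tele_cost (k : ℕ) (L : Ω → α) (T : ∀ j, Ω → τ j) (e : ℕ → Ω → β)
    (hT : ∀ j, j < k → Fn P (T j) (T (j + 1))) :
    ∑ j ∈ range k, mi P (e (j + 1)) (T (j + 1)) (fun ω => (L ω, T j ω)) ≤
      hc P (e 0) (fun ω => (L ω, T 0 ω)) - hc P (e k) (fun ω => (L ω, T k ω)) +
        ∑ j ∈ range k, hc P (e (j + 1)) (e j) := by
  induction k with
  | zero => simp
  | succ k ih =>
    have h0 := ih fun j hj => hT j (by omega)
    rw [sum_range_succ, sum_range_succ]
    have h1 : hc P (e (k + 1)) (fun ω => (T (k + 1) ω, L ω, T k ω)) =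
        hc P (e (k + 1)) (fun ω => (L ω, T (k + 1) ω)) := by
      refine hc_congr P (fun ω ω' _ _ q => congrArg Prod.fst q)
        (fun ω ω' _ _ q => congrArg Prod.fst q) ?_ ?_
      · intro ω ω' p p' q
        simp only [Prod.mk.injEq] at q ⊢
        exact ⟨q.2, q.1, hT k (by omega) ω ω' p p' q.2⟩
      · intro ω ω' p p' q
        simp only [Prod.mk.injEq] at q ⊢
        exact ⟨q.2.1, q.1⟩
    have h2 : hc P (e (k + 1)) (fun ω => (L ω, T k ω)) ≤
        hc P (e k) (fun ω => (L ω, T k ω)) +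
          hc P (e (k + 1)) (fun ω => (e k ω, L ω, T k ω)) :=
      hc_le_add P (e (k + 1)) (e k) _
    have h3 : hc P (e (k + 1)) (fun ω => (e k ω, L ω, T k ω)) ≤ hc P (e (k + 1)) (e k) :=
      hc_mono_right P _ fun ω ω' _ _ q => congrArg Prod.fst q
    have h4 : mi P (e (k + 1)) (T (k + 1)) (fun ω => (L ω, T k ω)) =
        hc P (e (k + 1)) (fun ω => (L ω, T k ω)) -
          hc P (e (k + 1)) (fun ω => (L ω, T (k + 1) ω)) := by
      unfold mi
      rw [h1]
    rw [h4]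
    linarith

end chain

end Vale.Agent.P127.U.ShapeCost
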